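import Vale.Agent.P153.R2.R1.Jan
import Vale.Agent.P032.S5.H410.Min

/-!
# P032: closed totally disconnected sets do not separate; walls in open germs (wild frame `Irr U T`)

* `preconnected_diff_td` : `O` open preconnected in the plane, `Z` closed and totally disconnected: `O \ Z` is
  preconnected;
* `three_of_notMem` : six colours: a point off the closed totally disconnected set
  `XX U ∩ {4 ≤ |Pal|}` has at most three colours;
* `wall` : if the palettes in the open preconnected set `O` are inside `A ∪ B`, some meet `A` and some meet `B`,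
  then some palette with at most three colours meets both;
* `sector_part_open` : the general wall graph rule near `x`, without a bound on the palettes.
-/

open Set Filter Topology Metric

noncomputable section

namespace Vale.Agent.P032.H670

open Vale.Agent.P153.R2.R1 Vale.Agent.P032.Six Vale.Agent.P032.S5.H410

/-- the logarithm outside a disc containing `p` and `q` -/
theorem logOn_outside {x p q : ℂ} {ρ : ℝ} (hp : dist p x ≤ ρ) (hq : dist q x ≤ ρ) :
    LogOn {z | ρ < dist z x} p q := by
  have h1 : LogOn {z | ρ < dist z x} p x := logOn_of_near fun z hz => by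
    rw [← dist_eq_norm, ← dist_eq_norm]
    exact lt_of_le_of_lt hp hz
  have h2 : LogOn {z | ρ < dist z x} q x := logOn_of_near fun z hz => by
    rw [← dist_eq_norm, ← dist_eq_norm]
    exact lt_of_le_of_lt hq hz
  refine h1.trans ?_ h2.symm
  intro hx
  have hx : ρ < dist x x := hx
  rw [dist_self] at hx
  linarith [dist_nonneg (x := p) (y := x)]

/-- the logarithm on a small disc off `p` and `q` -/
theorem logOn_ball {c p q : ℂ} (hp : c ≠ p) (hq : c ≠ q) : ∃ r > 0, LogOn (ball c r) p q := by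
  have hf : ContinuousAt (fun z : ℂ => (z - p) / (z - q)) c :=
    (continuousAt_id.sub continuousAt_const).div (continuousAt_id.sub continuousAt_const)
      (sub_ne_zero.2 hq)
  have hc0 : (c - p) / (c - q) ≠ 0 := div_ne_zero (sub_ne_zero.2 hp) (sub_ne_zero.2 hq)
  have hg : ContinuousAt (fun z : ℂ => (z - p) / (z - q) / ((c - p) / (c - q))) c :=
    hf.div continuousAt_const hc0
  have h1 : (fun z : ℂ => (z - p) / (z - q) / ((c - p) / (c - q))) c ∈ Complex.slitPlane := by
    show (c - p) / (c - q) / ((c - p) / (c - q)) ∈ Complex.slitPlane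
    rw [div_self hc0]
    exact Complex.one_mem_slitPlane
  have h2 : ∀ᶠ z in 𝓝 c, (z - p) / (z - q) / ((c - p) / (c - q)) ∈ Complex.slitPlane :=
    hg.eventually_mem (Complex.isOpen_slitPlane.mem_nhds h1)
  have h3 : ∀ᶠ z in 𝓝 c, z ≠ q := isOpen_ne.mem_nhds hq
  obtain ⟨r, hr, hb⟩ := Metric.eventually_nhds_iff_ball.1 (h2.and h3)
  refine ⟨r, hr, fun z => Complex.log ((z - p) / (z - q) / ((c - p) / (c - q))) +
    Complex.log ((c - p) / (c - q)), ?_, fun z hz => ?_⟩
  · refine ContinuousOn.add (ContinuousOn.clog ?_ fun z hz => (hb z hz).1) continuousOn_const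
    refine ContinuousOn.div ?_ continuousOn_const fun z _ => hc0
    exact (continuousOn_id.sub continuousOn_const).div (continuousOn_id.sub continuousOn_const)
      fun z hz => sub_ne_zero.2 (hb z hz).2
  · rw [Complex.exp_add, Complex.exp_log (Complex.slitPlane_ne_zero (hb z hz).1),
      Complex.exp_log hc0, div_mul_cancel₀ _ hc0]

/-- a closed totally disconnected set does not separate a disc -/
theorem preconnected_ball_diff {Z : Set ℂ} (hZ : IsClosed Z) (hZd : IsTotallyDisconnected Z) (x : ℂ)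
    (R : ℝ) : IsPreconnected (ball x R \ Z) := by
  classical
  refine isPreconnected_of_forall_pair fun p hp q hq => ?_
  have hpR : dist p x < R := hp.1
  have hqR : dist q x < R := hq.1
  set D : Set ℂ := Z ∩ closedBall x R with hD
  have hDc : IsClosed D := hZ.inter isClosed_closedBall
  have hDd : IsTotallyDisconnected D := fun s hs hs' => hZd s (hs.trans inter_subset_left) hs'
  obtain ⟨ρ, hpρ, hqρ, hρR⟩ : ∃ ρ, dist p x ≤ ρ ∧ dist q x ≤ ρ ∧ ρ < R :=
    ⟨max (dist p x) (dist q x), le_max_left _ _, le_max_right _ _, max_lt hpR hqR⟩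
  obtain ⟨G, hG, hGe⟩ := logOn_outside hpρ hqρ
  have hWo : IsOpen {z : ℂ | ρ < dist z x} := isOpen_lt continuous_const (continuous_id.dist continuous_const)
  have hloc : ∀ c : ℂ, ∃ r > 0, c ∈ D → ¬ ρ < dist c x → LogOn (ball c r) p q := by
    intro c
    by_cases hc : c ∈ D
    · obtain ⟨r, hr, hL⟩ := logOn_ball (c := c) (p := p) (q := q)
        (fun e => hp.2 (e ▸ hc.1)) (fun e => hq.2 (e ▸ hc.1))
      exact ⟨r, hr, fun _ _ => hL⟩
    · exact ⟨1, one_pos, fun h => absurd h hc⟩
  choose r hr hL using hloc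
  have hLF : ∀ c : ℂ, ∃ F : ℂ → ℂ, c ∈ D → ¬ ρ < dist c x →
      ContinuousOn F (ball c (r c)) ∧ ∀ z ∈ ball c (r c), Complex.exp (F z) = (z - p) / (z - q) := by
    intro c
    by_cases h1 : c ∈ D ∧ ¬ ρ < dist c x
    · obtain ⟨F, hF⟩ := hL c h1.1 h1.2
      exact ⟨F, fun _ _ => hF⟩
    · exact ⟨fun _ => 0, fun h2 h3 => absurd ⟨h2, h3⟩ h1⟩
  choose L hLc using hLF
  -- labels
  obtain ⟨lab, hlab, hlc⟩ := exists_lab hDc.isLocallyClosed hDd
    (fun c => if ρ < dist c x then dist c x - ρ else min (r c) (R - ρ)) (by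
      intro c _
      by_cases h1 : ρ < dist c x
      · simp only [h1, if_true]
        linarith
      · simp only [h1, if_false]
        exact lt_min (hr c) (by linarith))
  have hfar : ∀ d ∈ D, ρ < dist (lab d) x → ρ < dist d x := by
    intro d hd h1
    have h2 := (hlab d hd).2
    simp only [h1, if_true] at h2
    have h3 := dist_triangle (lab d) d x
    rw [dist_comm (lab d) d] at h3
    linarith
  have hnear : ∀ d ∈ D, ¬ ρ < dist (lab d) x → dist d x < R ∧ d ∈ ball (lab d) (r (lab d)) := by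
    intro d hd h1
    have h2 := (hlab d hd).2
    simp only [h1, if_false] at h2
    have h3 := dist_triangle d (lab d) x
    have h4 := lt_of_lt_of_le h2 (min_le_right _ _)
    refine ⟨by push Not at h1; linarith, ?_⟩
    rw [mem_ball]
    exact lt_of_lt_of_le h2 (min_le_left _ _)
  let F : ℂ → ℂ := fun z =>
    if z ∈ sphere x R ∨ z ∉ D ∨ ρ < dist (lab z) x then G z else L (lab z) z
  have hlog : LogOn (D ∪ sphere x R) p q := by
    refine ⟨F, fun z hz => ?_, fun z hz => ?_⟩
    · by_cases hzs : z ∈ sphere x R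
      · -- on the sphere: `F = G` nearby
        have hzW : ρ < dist z x := by
          rw [mem_sphere] at hzs
          rw [hzs]
          exact hρR
        have h1 : ContinuousAt G z := hG.continuousAt (hWo.mem_nhds hzW)
        have h2 : ∀ᶠ w in 𝓝[D ∪ sphere x R] z, F w = G w := by
          rw [eventually_nhdsWithin_iff]
          have h3 : ∀ᶠ w in 𝓝 z, w ∈ D → ρ < dist (lab w) x := by
            by_cases hzD : z ∈ D
            · filter_upwards [hlc z hzD] with w hw hwD
              rw [hw hwD]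
              by_contra hcon
              have := (hnear z hzD hcon).1
              rw [mem_sphere] at hzs
              linarith
            · filter_upwards [hDc.isOpen_compl.mem_nhds hzD] with w hw hwD
              exact absurd hwD hw
          filter_upwards [h3] with w hw hwK
          refine if_pos ?_
          by_cases hwD : w ∈ D
          · exact Or.inr (Or.inr (hw hwD))
          · exact Or.inr (Or.inl hwD)
        exact (h1.continuousWithinAt.congr_of_eventuallyEq h2
          (if_pos (Or.inl hzs)))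
      · have hzD : z ∈ D := hz.resolve_right hzs
        have hns : ∀ᶠ w in 𝓝 z, w ∉ sphere x R := isClosed_sphere.isOpen_compl.mem_nhds hzs
        by_cases hl : ρ < dist (lab z) x
        · have h1 : ContinuousAt G z := hG.continuousAt (hWo.mem_nhds (hfar z hzD hl))
          have h2 : ∀ᶠ w in 𝓝[D ∪ sphere x R] z, F w = G w := by
            rw [eventually_nhdsWithin_iff]
            filter_upwards [hlc z hzD] with w hw hwK
            refine if_pos ?_
            by_cases hwD : w ∈ D
            · exact Or.inr (Or.inr (by rw [hw hwD]; exact hl))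
            · exact Or.inr (Or.inl hwD)
          exact h1.continuousWithinAt.congr_of_eventuallyEq h2 (if_pos (Or.inr (Or.inr hl)))
        · obtain ⟨-, h3⟩ := hnear z hzD hl
          have h1 : ContinuousAt (L (lab z)) z :=
            (hLc (lab z) (hlab z hzD).1 hl).1.continuousAt (isOpen_ball.mem_nhds h3)
          have h2 : ∀ᶠ w in 𝓝[D ∪ sphere x R] z, F w = L (lab z) w := by
            rw [eventually_nhdsWithin_iff]
            filter_upwards [hlc z hzD, hns] with w hw hws hwK
            have hwD : w ∈ D := hwK.resolve_right hws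
            show (if w ∈ sphere x R ∨ w ∉ D ∨ ρ < dist (lab w) x then G w else L (lab w) w) = _
            rw [hw hwD, if_neg]
            rintro (h4 | h4 | h4)
            · exact hws h4
            · exact h4 hwD
            · exact hl h4
          refine h1.continuousWithinAt.congr_of_eventuallyEq h2 (if_neg ?_)
          rintro (h4 | h4 | h4)
          · exact hzs h4
          · exact h4 hzD
          · exact hl h4
    · show Complex.exp (if z ∈ sphere x R ∨ z ∉ D ∨ ρ < dist (lab z) x then G z else L (lab z) z) = _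
      by_cases h1 : z ∈ sphere x R ∨ z ∉ D ∨ ρ < dist (lab z) x
      · rw [if_pos h1]
        refine hGe z ?_
        show ρ < dist z x
        by_cases hzs : z ∈ sphere x R
        · rw [mem_sphere] at hzs
          rw [hzs]
          exact hρR
        · have hzD : z ∈ D := hz.resolve_right hzs
          rcases h1 with h1 | h1 | h1
          · exact absurd h1 hzs
          · exact absurd hzD h1
          · exact hfar z hzD h1
      · rw [if_neg h1]
        push Not at h1
        obtain ⟨h2, h3, h4⟩ := h1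
        have h5 : ¬ ρ < dist (lab z) x := by linarith
        exact (hLc (lab z) (hlab z h3).1 h5).2 z (hnear z h3 h5).2
  have hKc : IsCompact (D ∪ sphere x R) :=
    (((isCompact_closedBall x R).inter_left hZ)).union (isCompact_sphere x R)
  have hpK : p ∉ D ∪ sphere x R := by
    rintro (h1 | h1)
    · exact hp.2 h1.1
    · rw [mem_sphere] at h1
      linarith
  have hqK : q ∉ D ∪ sphere x R := by
    rintro (h1 | h1)
    · exact hq.2 h1.1
    · rw [mem_sphere] at h1
      linarith
  have hmem := mem_component_of_log hKc hpK hqK hlog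
  have hC : IsPreconnected (connectedComponentIn (D ∪ sphere x R)ᶜ p) :=
    isPreconnected_connectedComponentIn
  have hsub : connectedComponentIn (D ∪ sphere x R)ᶜ p ⊆ (D ∪ sphere x R)ᶜ :=
    connectedComponentIn_subset _ _
  have hpC : p ∈ connectedComponentIn (D ∪ sphere x R)ᶜ p := mem_connectedComponentIn hpK
  have hball : connectedComponentIn (D ∪ sphere x R)ᶜ p ⊆ ball x R := by
    intro y hy
    by_contra hcon
    have h1 : R ≤ dist y x := by
      rw [mem_ball] at hcon
      linarith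
    obtain ⟨w, hw, hwR⟩ := hC.intermediate_value (f := fun z => dist z x) hpC hy
      (continuous_id.dist continuous_const).continuousOn ⟨hpR.le, h1⟩
    exact hsub hw (Or.inr hwR)
  refine ⟨_, fun y hy => ⟨hball hy, fun hyZ => ?_⟩, hpC, hmem, hC⟩
  exact hsub hy (Or.inl ⟨hyZ, ball_subset_closedBall (hball hy)⟩)

/-- a totally disconnected set contains no disc -/
theorem ball_diff_nonempty {Z : Set ℂ} (hZd : IsTotallyDisconnected Z) (x : ℂ) {R : ℝ} (hR : 0 < R) :
    (ball x R \ Z).Nonempty := by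
  by_contra hcon
  rw [not_nonempty_iff_eq_empty, sdiff_eq_empty] at hcon
  have h1 := hZd _ hcon (convex_ball x R).isPreconnected
  have h2 : x ∈ ball x R := mem_ball_self hR
  have h3 : x + ((R / 2 : ℝ) : ℂ) ∈ ball x R := by
    rw [mem_ball, dist_eq_norm]
    simp only [add_sub_cancel_left, Complex.norm_real, Real.norm_eq_abs]
    rw [abs_of_pos (by linarith)]
    linarith
  have h4 := h1 h2 h3
  have h5 : ((R / 2 : ℝ) : ℂ) = 0 := by
    have : x + ((R / 2 : ℝ) : ℂ) = x + 0 := by rw [← h4, add_zero]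
    exact add_left_cancel this
  rw [Complex.ofReal_eq_zero] at h5
  linarith

/-- **a closed totally disconnected set does not separate an open preconnected set of the plane** -/
theorem preconnected_diff_td {O Z : Set ℂ} (hO : IsOpen O) (hOc : IsPreconnected O) (hZ : IsClosed Z)
    (hZd : IsTotallyDisconnected Z) : IsPreconnected (O \ Z) := by
  intro u v hu hv huv hnu hnv
  by_contra hcon
  have hemp : (O \ Z) ∩ (u ∩ v) = ∅ := not_nonempty_iff_eq_empty.1 hcon
  let W : Set ℂ → Set ℂ := fun s => {y | ∃ r > 0, ball y r ⊆ O ∧ ball y r \ Z ⊆ s}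
  have hWo : ∀ s, IsOpen (W s) := by
    intro s
    rw [Metric.isOpen_iff]
    rintro y ⟨r, hr, h1, h2⟩
    refine ⟨r / 2, by linarith, fun w hw => ⟨r / 2, by linarith, ?_, ?_⟩⟩
    · exact (ball_subset (by rw [mem_ball] at hw; linarith)).trans h1
    · exact (sdiff_subset_sdiff_left (ball_subset (by rw [mem_ball] at hw; linarith))).trans h2
  have hcov : O ⊆ W u ∪ W v := by
    intro y hy
    obtain ⟨r, hr, hrO⟩ := Metric.isOpen_iff.1 hO y hy
    have h1 := preconnected_ball_diff hZ hZd y r
    have h2 : ball y r \ Z ⊆ O \ Z := sdiff_subset_sdiff_left hrO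
    rcases isPreconnected_iff_subset_of_disjoint.1 h1 u v hu hv (h2.trans huv)
      (subset_empty_iff.1 ((inter_subset_inter_left _ h2).trans hemp.subset)) with h3 | h3
    · exact Or.inl ⟨r, hr, hrO, h3⟩
    · exact Or.inr ⟨r, hr, hrO, h3⟩
  have hne : ∀ s, IsOpen s → ((O \ Z) ∩ s).Nonempty → (O ∩ W s).Nonempty := by
    rintro s hs ⟨y, ⟨hyO, -⟩, hys⟩
    obtain ⟨r, hr, hrO⟩ := Metric.isOpen_iff.1 (hO.inter hs) y ⟨hyO, hys⟩
    exact ⟨y, hyO, r, hr, fun w hw => (hrO hw).1, fun w hw => (hrO hw.1).2⟩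
  obtain ⟨y, hyO, ⟨r, hr, h1, h2⟩, r', hr', h3, h4⟩ :=
    hOc (W u) (W v) (hWo u) (hWo v) hcov (hne u hu hnu) (hne v hv hnv)
  obtain ⟨w, hw, hwZ⟩ := ball_diff_nonempty hZd y (lt_min hr hr')
  have h5 : w ∈ ball y r := ball_subset_ball (min_le_left _ _) hw
  have h6 : w ∈ ball y r' := ball_subset_ball (min_le_right _ _) hw
  exact hcon ⟨w, ⟨h1 h5, hwZ⟩, h2 ⟨h5, hwZ⟩, h4 ⟨h6, hwZ⟩⟩

/-! ### walls -/

variable {U : Fin 6 → Set ℂ} {T : ℂ → Set (Fin 6)}

/-- off `XX U ∩ {4 ≤ |Pal|}` the palettes have at most three colours -/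
theorem three_of_notMem (h : Irr U T) {w : ℂ} (hw : w ∉ XX U ∩ {x | 4 ≤ (Pal U x).ncard}) :
    (T w).ncard ≤ 3 := by
  by_cases hX : w ∈ XX U
  · have h1 : ¬ 4 ≤ (Pal U w).ncard := fun h1 => hw ⟨hX, h1⟩
    have h2 := Set.ncard_le_ncard (h.sub w) (Set.toFinite _)
    omega
  · exact (Set.ncard_le_ncard (t := {i | w ∈ U i}) (fun i hi => h.off w hX i hi)
      (Set.toFinite _)).trans (h.mx.K0_three w)

/-- **Wall lemma.** In an open preconnected set whose palettes are inside `A ∪ B`, some meeting `A` and some meeting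
`B`, there is a palette with at most three colours which meets both. -/
theorem wall (h : Irr U T) {O : Set ℂ} (hO : IsOpen O) (hOc : IsPreconnected O) {A B : Set (Fin 6)}
    (hT : ∀ w ∈ O, T w ⊆ A ∪ B) (hA : ∃ w ∈ O, ∃ i ∈ A, i ∈ T w) (hB : ∃ w ∈ O, ∃ i ∈ B, i ∈ T w) :
    ∃ w ∈ O, (T w).ncard ≤ 3 ∧ (∃ i ∈ A, i ∈ T w) ∧ ∃ i ∈ B, i ∈ T w := by
  obtain ⟨hZ, hZd⟩ := td_XX h.mx
  have hc := preconnected_diff_td hO hOc hZ hZd
  have hcl : ∀ A : Set (Fin 6), IsClosed {v | ∃ i ∈ A, i ∈ T v} := by
    intro A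
    have e : {v | ∃ i ∈ A, i ∈ T v} = ⋃ i ∈ A, {v | i ∈ T v} := by ext v; simp
    rw [e]
    exact (Set.toFinite A).isClosed_biUnion fun i _ => h.closed i
  have hpure : ∀ A : Set (Fin 6), (∃ w ∈ O, ∃ i ∈ A, i ∈ T w) →
      ((O \ (XX U ∩ {x | 4 ≤ (Pal U x).ncard})) ∩ {v | ∃ i ∈ A, i ∈ T v}).Nonempty := by
    rintro A ⟨w, hw, i, hi, hiw⟩
    obtain ⟨v, hv, hvO⟩ := ((h.pure w i hiw).and_eventually (hO.mem_nhds hw)).exists
    have hvU : v ∈ U i := h.mem_of_single hv.subset
    exact ⟨v, ⟨hvO, fun h1 => h1.1 i hvU⟩, i, hi, by rw [hv]; rfl⟩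
  obtain ⟨w, ⟨hw, hwZ⟩, h1, h2⟩ := isPreconnected_closed_iff.1 hc _ _ (hcl A) (hcl B)
    (fun w hw => by
      obtain ⟨m, hm⟩ := h.ne w
      exact (hT w hw.1 hm).imp (fun h1 => ⟨m, h1, hm⟩) fun h1 => ⟨m, h1, hm⟩)
    (hpure A hA) (hpure B hB)
  exact ⟨w, hw, three_of_notMem h hwZ, h1, h2⟩

/-- **The wall graph rule** near `x`, any number of colours. `Y` a finite set of points of `S(x)`. Near `x`: an open
preconnected set `K` with colours in `A ∪ B` such that for `i ∈ A`, `j ∈ B` some `y ∈ Y` has `T y ⊆ {i, j}` has only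
colours of `A` or only colours of `B`. -/
theorem sector_part_open (h : Irr U T) {x : ℂ} {Y : Set ℂ} (hY : Y.Finite) (hYx : ∀ y ∈ Y, dist y x = 1) :
    ∃ r > 0, ∀ K ⊆ ball x r, IsOpen K → IsPreconnected K → ∀ A B : Set (Fin 6), (∀ v ∈ K, T v ⊆ A ∪ B) →
      (∀ i ∈ A, ∀ j ∈ B, ∃ y ∈ Y, T y ⊆ {i, j}) →
        (∀ v ∈ K, T v ⊆ A) ∨ (∀ v ∈ K, T v ⊆ B) := by
  have h1 : ∀ᶠ v in 𝓝 x, ∀ y ∈ Y, T y ⊆ T v → 4 ≤ (T v).ncard :=
    (Filter.eventually_all_finite hY).2 fun y hy => h.no_layer (hYx y hy)
  obtain ⟨r, hr, hb⟩ := Metric.eventually_nhds_iff_ball.1 h1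
  refine ⟨r, hr, fun K hKr hKo hK A B hT hAB => ?_⟩
  by_contra hcon
  push Not at hcon
  obtain ⟨⟨p, hp, hpA⟩, q, hq, hqB⟩ := hcon
  obtain ⟨i, hi, hiA⟩ := Set.not_subset.1 hpA
  obtain ⟨j, hj, hjB⟩ := Set.not_subset.1 hqB
  have hiB : i ∈ B := (hT p hp hi).resolve_left hiA
  have hjA : j ∈ A := (hT q hq hj).resolve_right hjB
  obtain ⟨v, hv, h3, ⟨a, haA, ha⟩, b, hbB, hb'⟩ := wall h hKo hK hT ⟨q, hq, j, hjA, hj⟩ ⟨p, hp, i, hiB, hi⟩
  obtain ⟨y, hy, hyT⟩ := hAB a haA b hbB
  have h4 : ({a, b} : Set (Fin 6)) ⊆ T v := by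
    rintro m (rfl | rfl)
    · exact ha
    · exact hb'
  have h5 := hb v (hKr hv) y hy (hyT.trans h4)
  omega

end Vale.Agent.P032.H670
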